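import Vale.Agent.P073.LOC.CollParts
import Vale.Agent.P073.LOC.Thick67
import Vale.Agent.P073.AB.Sum293a

/-!
# P073, block LOC-3D: the controlled squares
-/

namespace Vale.Agent.P073.LOC.C720

open MeasureTheory Set Filter Topology Metric Vale.Agent.P073.St
open Vale.Agent.P073.SQ (ev cube SuppDiffeo faceE dE)
open Vale.Agent.P073.AB (cl Idx pt edge eInt squ)
open Vale.Agent.P073.AB.P86 (sc)
open Vale.Agent.P073.LR (AffNear)
open Vale.Agent.P073.LOC.L3 (cc hl CS muC muZ muZ_main muC_slab slabs lamC_eq md_mul' md midC_two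
  muC_near_main muC_horiz mem_core_iff)
open P073.Net (dyc dyo)
open scoped ContDiff ENNReal

/-! ## Affine near -/

theorem affNear_of {μ : V → ℝ} {x : V} {P : V → Prop} (H : ∀ᶠ y in 𝓝 x, P y) (w : V) (c : ℝ)
    (h : ∀ y s, P y → P (y + s • w) → μ (y + s • w) = μ y + s * c) : AffNear μ x w c := by
  obtain ⟨r, hr, h1⟩ := Metric.eventually_nhds_iff.1 H
  have hw : 0 < 2 * (1 + ‖w‖) := by positivity
  refine ⟨r / (2 * (1 + ‖w‖)), div_pos hr hw, fun z hz s hs => ?_⟩
  have hrr : r / (2 * (1 + ‖w‖)) * (1 + ‖w‖) = r / 2 := by field_simp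
  have hr1 : r / (2 * (1 + ‖w‖)) ≤ r / 2 := by
    apply div_le_div_of_nonneg_left hr.le (by norm_num)
    nlinarith [norm_nonneg w]
  refine h z s (h1 ?_) (h1 ?_)
  · rw [dist_eq_norm]; linarith
  · rw [dist_eq_norm]
    have e : z + s • w - x = (z - x) + s • w := by abel
    rw [e]
    have h2 := norm_add_le (z - x) (s • w)
    rw [norm_smul, Real.norm_eq_abs] at h2
    have h3 : |s| * ‖w‖ ≤ r / (2 * (1 + ‖w‖)) * ‖w‖ :=
      mul_le_mul_of_nonneg_right hs.le (norm_nonneg _)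
    have h4 : r / (2 * (1 + ‖w‖)) * (1 + ‖w‖) =
      r / (2 * (1 + ‖w‖)) + r / (2 * (1 + ‖w‖)) * ‖w‖ := by ring
    linarith

theorem affNear_main {μ : V → ℝ} {x : V} {h : ℝ} (H : ∀ᶠ y in 𝓝 x, μ y = -(y 2 - h)) (w : V) :
    AffNear μ x w (-(w 2)) := by
  refine affNear_of H w _ fun y s h1 h2 => ?_
  rw [h1, h2]
  simp only [Pi.add_apply, Pi.smul_apply, smul_eq_mul]
  ring

variable {v : V} {n m : ℕ} {s : Idx × Fin 3} {z : ℤ}

theorem affNear_horiz {N M : ℕ} {x : V} (hx : ∀ i, i ≠ 2 → |x i - cc v n i| < hl n) {j : Fin 3}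
    (hj : j ≠ 2) : AffNear (muC 2 v n N M) x (ev j) 0 := by
  have H : ∀ᶠ y in 𝓝 x, ∀ i, i ≠ 2 → |y i - cc v n i| < hl n := by
    rw [Filter.eventually_all]
    intro i
    by_cases hi : i = 2
    · exact Eventually.of_forall fun y h => absurd hi h
    · have c1 : Continuous fun y : V => |y i - cc v n i| := by fun_prop
      filter_upwards [c1.tendsto x |>.eventually_lt_const (hx i hi)] with y hy _
      exact hy
  refine affNear_of H _ _ fun y s h1 h2 => ?_
  rw [mul_zero, add_zero]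
  refine muC_horiz (fun i hi => (h2 i hi).le) (fun i hi => (h1 i hi).le) ?_
  simp [ev, Pi.single_eq_of_ne hj.symm]

/-! ## Geometry of a square -/

theorem abs_lt_of_ends {a b x h R : ℝ} (ha : |a - h| ≤ R) (hb : |b - h| ≤ R) (h1 : a < x)
    (h2 : x < b) : |x - h| < R := by
  rw [abs_le] at ha hb
  rw [abs_lt]
  constructor <;> linarith [ha.1, hb.2]

theorem cube_bd {x : V} (hx : x ∈ cube (sc v s) (1 / 2 / 2 ^ s.1.1)) {i : Fin 3} (hi : i ≠ s.2) :
    v i + s.1.2 i / 2 ^ s.1.1 ≤ x i ∧ x i ≤ v i + (s.1.2 i + 1) / 2 ^ s.1.1 := by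
  have h := abs_le.1 (hx i)
  simp only [sc, hi, if_false] at h
  have e1 : v i + ((s.1.2 i : ℝ) + 1 / 2) / 2 ^ s.1.1 - 1 / 2 / 2 ^ s.1.1 =
    v i + s.1.2 i / 2 ^ s.1.1 := by ring
  have e2 : v i + ((s.1.2 i : ℝ) + 1 / 2) / 2 ^ s.1.1 + 1 / 2 / 2 ^ s.1.1 =
    v i + (s.1.2 i + 1) / 2 ^ s.1.1 := by ring
  constructor <;> linarith [h.1, h.2]

theorem cube_bd' {x : V} (hx : x ∈ cube (sc v s) (1 / 2 / 2 ^ s.1.1)) {i : Fin 3} (hi : i ≠ s.2)
    (hg : |x i - sc v s i| ≠ 1 / 2 / 2 ^ s.1.1) :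
    v i + s.1.2 i / 2 ^ s.1.1 < x i ∧ x i < v i + (s.1.2 i + 1) / 2 ^ s.1.1 := by
  have h := abs_lt.1 (lt_of_le_of_ne (hx i) hg)
  simp only [sc, hi, if_false] at h
  have e1 : v i + ((s.1.2 i : ℝ) + 1 / 2) / 2 ^ s.1.1 - 1 / 2 / 2 ^ s.1.1 =
    v i + s.1.2 i / 2 ^ s.1.1 := by ring
  have e2 : v i + ((s.1.2 i : ℝ) + 1 / 2) / 2 ^ s.1.1 + 1 / 2 / 2 ^ s.1.1 =
    v i + (s.1.2 i + 1) / 2 ^ s.1.1 := by ring
  constructor <;> linarith [h.1, h.2]

theorem upd_mem {x : V} (hx : x ∈ cube (sc v s) (1 / 2 / 2 ^ s.1.1)) :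
    Function.update x s.2 (sc v s s.2) ∈ squ v s := by
  refine ⟨by simp [sc], fun k hk => ?_⟩
  rw [Function.update_of_ne hk]
  exact cube_bd hx hk

theorem upd_end {x : V} (hx : x ∈ squ v s) {i : Fin 3} (hi : i ≠ s.2) {t : ℝ}
    (h1 : v i + s.1.2 i / 2 ^ s.1.1 ≤ t) (h2 : t ≤ v i + (s.1.2 i + 1) / 2 ^ s.1.1) :
    Function.update x i t ∈ squ v s := by
  refine ⟨by rw [Function.update_of_ne hi.symm]; exact hx.1, fun k hk => ?_⟩
  by_cases hki : k = i
  · subst hki
    rw [Function.update_self]; exact ⟨h1, h2⟩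
  · rw [Function.update_of_ne hki]; exact hx.2 k hk

/-- strict bounds at the interior points -/
theorem strict_of {i : Fin 3} {h R : ℝ} (H : ∀ y ∈ squ v s, |y i - h| ≤ R) {x : V}
    (hx : x ∈ cube (sc v s) (1 / 2 / 2 ^ s.1.1)) (hi : i ≠ s.2)
    (hg : |x i - sc v s i| ≠ 1 / 2 / 2 ^ s.1.1) :
    |Function.update x s.2 (sc v s s.2) i - h| < R := by
  have hx' := upd_mem hx
  obtain ⟨b1, b2⟩ := cube_bd' hx hi hg
  have hle : v i + (s.1.2 i : ℝ) / 2 ^ s.1.1 ≤ v i + (s.1.2 i + 1) / 2 ^ s.1.1 := by linarith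
  have h1 := H _ (upd_end hx' hi le_rfl hle)
  have h2 := H _ (upd_end hx' hi hle le_rfl)
  rw [Function.update_self] at h1 h2
  rw [Function.update_of_ne hi]
  exact abs_lt_of_ends h1 h2 b1 b2

/-- the moved point -/
theorem moved (hn : 3 ≤ n) (hm : n + 2 ≤ m) (hz : z ∈ slabs n n) {x : V}
    (hx : x ∈ thick v n m z) :
    x + muC 2 v n n m x • ev 2 = Function.update x 2 (mid v n z) := by
  have h1 : ∀ i, i ≠ 2 → |x i - cc v n i| ≤ hl n := fun i _ => mem_core_iff.1 hx.1 i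
  have h2 := hx.2
  have h0 : (0:ℝ) < 1 / 2 ^ m := by positivity
  have h3 : muC 2 v n n m x = -(x 2 - mid v n z) := by
    rw [muC_slab hn hm hz (by rw [midC_two]; linarith), muZ_main, midC_two]
    rw [midC_two, lamC_eq h1, md_mul' hm]
    exact h2
  rw [h3]
  funext i
  by_cases hi : i = 2
  · subst hi
    simp [ev]
  · rw [Function.update_of_ne hi]
    simp [ev, Pi.single_eq_of_ne hi]

theorem slabs_mem (h1 : 2 ≤ z) (h2 : z < 2 ^ n - 3) : z ∈ slabs n n := by
  rw [slabs, Finset.mem_Ico, Nat.sub_self, pow_zero, mul_one, mul_one]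
  exact ⟨h1, h2⟩

/-! ## The limit -/

section limit

variable {p C ε : ℝ} {L : V →L[ℝ] V} {Λ : Set V} {f g : V → V} {S : ℕ → V → V}

theorem measurable_upd (k : Fin 3) (c : ℝ) : Measurable fun x : V => Function.update x k c := by
  refine measurable_pi_iff.2 fun i => ?_
  by_cases hi : i = k
  · subst hi; simp
  · simp only [Function.update_of_ne hi]; exact measurable_pi_apply i

theorem tendsto_face (hp : 0 < p) (hn : 3 ≤ n) (hm : n + 2 ≤ m) (hz : z ∈ slabs n n)
    (hS : Sec p C ε n m L Λ f g v) (hC : CS 2 v n n m S) (hs : squ v s ⊆ thick v n m z)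
    (j : Fin 3) (c : ℝ)
    (haff : ∀ x ∈ cube (sc v s) (1 / 2 / 2 ^ s.1.1),
      (∀ i, |x i - sc v s i| ≠ 1 / 2 / 2 ^ s.1.1) →
      AffNear (muC 2 v n n m) (Function.update x s.2 (sc v s s.2)) (ev j) c) :
    Tendsto (fun i => ∫⁻ x in cube (sc v s) (1 / 2 / 2 ^ s.1.1),
      dE p (g ∘ S i) j (Function.update x s.2 (sc v s s.2))) atTop
      (𝓝 (∫⁻ x in cube (sc v s) (1 / 2 / 2 ^ s.1.1), ENNReal.ofReal
        (‖fderiv ℝ g (Function.update (Function.update x s.2 (sc v s s.2)) 2 (mid v n z))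
          (ev j + c • ev 2)‖ ^ p))) := by
  have hρ : (0:ℝ) ≤ 1 / 2 / 2 ^ s.1.1 := by positivity
  have hcube : MeasurableSet (cube (sc v s) (1 / 2 / 2 ^ s.1.1)) :=
    (SQ.isClosed_cube _ _).measurableSet
  have hfin : volume (cube (sc v s) (1 / 2 / 2 ^ s.1.1)) ≠ ⊤ :=
    (SQ.isCompact_cube _ hρ).measure_lt_top.ne
  have hmem : ∀ x ∈ cube (sc v s) (1 / 2 / 2 ^ s.1.1),
      Function.update x s.2 (sc v s s.2) ∈ core v n := fun x hx => (hs (upd_mem hx)).1
  have key := hC.energy hS.org hp hS.diffeo (measurable_upd s.2 (sc v s s.2)) hcube hfin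
    (L3.isCompact_core v n) (L3.core_sub hS.org) hmem (ev j) 0 (c := fun _ => c) ?_
  · simp only [sub_zero] at key
    refine (key.congr fun i => ?_).trans_eq ?_
    · rfl
    · congr 1
      refine setLIntegral_congr_fun hcube fun x hx => ?_
      rw [moved hn hm hz (hs (upd_mem hx))]
  · filter_upwards [ae_restrict_of_ae (SQ.ae_generic (sc v s) (1 / 2 / 2 ^ s.1.1)),
      ae_restrict_mem hcube] with x hx hxc
    exact haff x hxc fun i => (hx.1 i).2

/-- the constant -/
noncomputable def K0 (p : ℝ) (L : V →L[ℝ] V) (C : ℝ) : ℝ :=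
  4 + 4 * ∑ j : Fin 3, ‖L (ev j)‖ ^ p + C

theorem vol_cube (c : V) (m : ℕ) :
    volume (cube c (1 / 2 / 2 ^ m)) = ENNReal.ofReal (1 / 8 ^ m) := by
  have h : cube c (1 / 2 / 2 ^ m) = Icc (fun l => c l - 1 / 2 / 2 ^ m)
      (fun l => c l + 1 / 2 / 2 ^ m) := by
    ext y
    simp only [cube, mem_ofPred_eq, mem_Icc, Pi.le_def]
    constructor
    · intro h
      exact ⟨fun l => by linarith [(abs_le.1 (h l)).1], fun l => by linarith [(abs_le.1 (h l)).2]⟩
    · rintro ⟨h1, h2⟩ l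
      exact abs_le.2 ⟨by linarith [h1 l], by linarith [h2 l]⟩
  have h2 : (0:ℝ) ≤ 1 / 2 ^ m := by positivity
  rw [h, Real.volume_Icc_pi]
  have h3 : ∀ l : Fin 3, ENNReal.ofReal (c l + 1 / 2 / 2 ^ m - (c l - 1 / 2 / 2 ^ m)) =
      ENNReal.ofReal (1 / 2 ^ m) := fun l => by congr 1; ring
  simp only [h3]
  rw [Finset.prod_const, Finset.card_univ, Fintype.card_fin, ← ENNReal.ofReal_pow h2]
  congr 1
  rw [div_pow, one_pow, ← pow_mul, mul_comm m 3, pow_mul]
  norm_num

theorem fin_sum {B K : ℝ} {G : ℕ → V → V} (hB : 0 ≤ B) (hBK : B < K)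
    (H : ∀ j ∈ Finset.univ.erase s.2, ∃ A ≤ ENNReal.ofReal (B / 8 ^ m),
      Tendsto (fun i => ∫⁻ x in cube (sc v s) (1 / 2 / 2 ^ s.1.1),
        dE p (G i) j (Function.update x s.2 (sc v s s.2))) atTop (𝓝 A)) :
    ∃ A : ℝ≥0∞, A < ENNReal.ofReal ((2 * K) / 8 ^ m) ∧
      Tendsto (fun i => faceE p (G i) (sc v s) s.2 (1 / 2 / 2 ^ s.1.1)) atTop (𝓝 A) := by
  choose! A hA hlim using H
  refine ⟨∑ j ∈ Finset.univ.erase s.2, A j, ?_, tendsto_finsetSum _ hlim⟩
  have hcard : (Finset.univ.erase s.2).card = 2 := by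
    rw [Finset.card_erase_of_mem (Finset.mem_univ _), Finset.card_univ, Fintype.card_fin]
  have h8 : (0:ℝ) < 8 ^ m := by positivity
  calc ∑ j ∈ Finset.univ.erase s.2, A j
      ≤ ∑ j ∈ Finset.univ.erase s.2, ENNReal.ofReal (B / 8 ^ m) := Finset.sum_le_sum hA
    _ = ENNReal.ofReal (2 * (B / 8 ^ m)) := by
        rw [Finset.sum_const, hcard, ENNReal.ofReal_mul (by norm_num), nsmul_eq_mul]
        norm_num
    _ < ENNReal.ofReal ((2 * K) / 8 ^ m) := by
        have hK : 0 < K := lt_of_le_of_lt hB hBK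
        rw [ENNReal.ofReal_lt_ofReal_iff (by positivity), mul_div_assoc]
        have := div_lt_div_of_pos_right hBK h8
        linarith

/-- horizontal squares -/
theorem horiz (hp1 : 1 ≤ p) (hp2 : p < 2) (hn : 3 ≤ n) (hm : n + 2 ≤ m) (hz1 : 2 ≤ z)
    (hz2 : z < 2 ^ n - 3) (hCpos : 0 < C) (hε1 : ε ≤ 1 / 8 ^ m)
    (hS : Sec p C ε n m L Λ f g v) (hC : CS 2 v n n m S) (hs : squ v s ⊆ thick v n m z)
    (hsm : s.1.1 = m) (hk : s.2 = 2) :
    ∃ A : ℝ≥0∞, A < ENNReal.ofReal ((2 * K0 p L C) / 8 ^ m) ∧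
      Tendsto (fun i => faceE p (g ∘ S i) (sc v s) s.2 (1 / 2 / 2 ^ s.1.1)) atTop (𝓝 A) := by
  have hp : 0 < p := by linarith
  have h8 : (0:ℝ) < 8 ^ m := by positivity
  have hρ : (0:ℝ) ≤ 1 / 2 / 2 ^ s.1.1 := by positivity
  refine fin_sum (B := 4 + 4 * ∑ j : Fin 3, ‖L (ev j)‖ ^ p) (by positivity)
    (by unfold K0; linarith) fun j hj => ?_
  have hj2 : j ≠ 2 := by rw [← hk]; exact Finset.ne_of_mem_erase hj
  refine ⟨_, ?_, tendsto_face hp hn hm (slabs_mem hz1 hz2) hS hC hs j 0 fun x hx hg => ?_⟩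
  · -- the cube lies in the core
    have hcube : MeasurableSet (cube (sc v s) (1 / 2 / 2 ^ s.1.1)) :=
      (SQ.isClosed_cube _ _).measurableSet
    have hsub : cube (sc v s) (1 / 2 / 2 ^ s.1.1) ⊆ core v n := by
      intro x hx
      have h1 := hs (upd_mem hx)
      have h2 : |x 2 - mid v n z| ≤ 1 / 2 ^ (n + 1) := by
        have h3 := h1.2
        rw [hk, Function.update_self] at h3
        have h4 := hx 2
        rw [hsm] at h4
        have h5 : x 2 - mid v n z = (x 2 - sc v s 2) + (sc v s 2 - mid v n z) := by ring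
        rw [h5]
        have h6 : (1:ℝ) / 2 / 2 ^ m ≤ 1 / 2 ^ m := by
          rw [div_div]
          apply div_le_div_of_nonneg_left zero_le_one (by positivity)
          have : (0:ℝ) < 2 ^ m := by positivity
          linarith
        exact (abs_add_le _ _).trans (by linarith)
      have h3 := T67.update_core hz1 hz2 h1.1 h2
      rwa [hk, Function.update_idem, Function.update_eq_self] at h3
    have hvol : volume (cube (sc v s) (1 / 2 / 2 ^ s.1.1)) = ENNReal.ofReal (1 / 8 ^ m) := by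
      rw [hsm]; exact vol_cube _ m
    have hsec : ∫⁻ x in cube (sc v s) (1 / 2 / 2 ^ s.1.1),
        ENNReal.ofReal (‖fderiv ℝ g (Function.update x 2 (mid v n z)) (ev j) - L (ev j)‖ ^ p) ≤
          ENNReal.ofReal ε := by
      refine le_trans ?_ (hS.sec z hz1 hz2)
      refine le_trans (lintegral_mono_set hsub) ?_
      exact Finset.single_le_sum (f := fun j => ∫⁻ x in core v n,
        ENNReal.ofReal (‖fderiv ℝ g (Function.update x 2 (mid v n z)) (ev j) - L (ev j)‖ ^ p))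
        (fun _ _ => zero_le) (Finset.mem_erase.2 ⟨hj2, Finset.mem_univ j⟩)
    have hpt : ∀ x : V, ENNReal.ofReal
        (‖fderiv ℝ g (Function.update (Function.update x s.2 (sc v s s.2)) 2 (mid v n z))
          (ev j + (0:ℝ) • ev 2)‖ ^ p) ≤
        ENNReal.ofReal 4 * ENNReal.ofReal
          (‖fderiv ℝ g (Function.update x 2 (mid v n z)) (ev j) - L (ev j)‖ ^ p) +
        ENNReal.ofReal (4 * ‖L (ev j)‖ ^ p) := by
      intro x
      rw [hk, Function.update_idem, zero_smul, add_zero, ← ENNReal.ofReal_mul (by norm_num),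
        ← ENNReal.ofReal_add (by positivity) (by positivity)]
      refine ENNReal.ofReal_le_ofReal ?_
      rw [← mul_add]
      refine le_trans ?_ (T67.rpow_add_le4 hp1 hp2 (norm_nonneg _) (norm_nonneg _))
      refine Real.rpow_le_rpow (norm_nonneg _) ?_ hp.le
      have := norm_add_le
        (fderiv ℝ g (Function.update x 2 (mid v n z)) (ev j) - L (ev j)) (L (ev j))
      rwa [sub_add_cancel] at this
    calc ∫⁻ x in cube (sc v s) (1 / 2 / 2 ^ s.1.1), ENNReal.ofReal
          (‖fderiv ℝ g (Function.update (Function.update x s.2 (sc v s s.2)) 2 (mid v n z))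
            (ev j + (0:ℝ) • ev 2)‖ ^ p)
        ≤ ∫⁻ x in cube (sc v s) (1 / 2 / 2 ^ s.1.1), (ENNReal.ofReal 4 * ENNReal.ofReal
          (‖fderiv ℝ g (Function.update x 2 (mid v n z)) (ev j) - L (ev j)‖ ^ p) +
            ENNReal.ofReal (4 * ‖L (ev j)‖ ^ p)) := lintegral_mono hpt
      _ = ENNReal.ofReal 4 * (∫⁻ x in cube (sc v s) (1 / 2 / 2 ^ s.1.1), ENNReal.ofReal
          (‖fderiv ℝ g (Function.update x 2 (mid v n z)) (ev j) - L (ev j)‖ ^ p)) +
            ENNReal.ofReal (4 * ‖L (ev j)‖ ^ p) * ENNReal.ofReal (1 / 8 ^ m) := by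
          rw [lintegral_add_right _ measurable_const, setLIntegral_const, hvol,
            lintegral_const_mul _ (T67.measurable_mid p g L j _)]
      _ ≤ ENNReal.ofReal 4 * ENNReal.ofReal (1 / 8 ^ m) +
            ENNReal.ofReal (4 * ‖L (ev j)‖ ^ p) * ENNReal.ofReal (1 / 8 ^ m) := by
          gcongr
          exact hsec.trans (ENNReal.ofReal_le_ofReal hε1)
      _ ≤ ENNReal.ofReal ((4 + 4 * ∑ j : Fin 3, ‖L (ev j)‖ ^ p) / 8 ^ m) := by
          rw [← ENNReal.ofReal_mul (by norm_num), ← ENNReal.ofReal_mul (by positivity),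
            ← ENNReal.ofReal_add (by positivity) (by positivity)]
          refine ENNReal.ofReal_le_ofReal ?_
          have h1 : ‖L (ev j)‖ ^ p ≤ ∑ j : Fin 3, ‖L (ev j)‖ ^ p :=
            Finset.single_le_sum (f := fun j => ‖L (ev j)‖ ^ p) (fun _ _ => by positivity)
              (Finset.mem_univ j)
          have h2 : 4 * (1 / 8 ^ m) + 4 * ‖L (ev j)‖ ^ p * (1 / 8 ^ m) =
            (4 + 4 * ‖L (ev j)‖ ^ p) / 8 ^ m := by ring
          rw [h2]
          apply div_le_div_of_nonneg_right _ h8.le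
          linarith
  · refine affNear_horiz (fun i hi => ?_) hj2
    exact strict_of (fun y hy => mem_core_iff.1 (hs hy).1 i) hx (by rw [hk]; exact hi) (hg i)

/-- vertical squares -/
theorem vert (hp1 : 1 ≤ p) (hn : 3 ≤ n) (hm : n + 2 ≤ m) (hz1 : 2 ≤ z)
    (hz2 : z < 2 ^ n - 3) (hCpos : 0 < C) (hS : Sec p C ε n m L Λ f g v)
    (hC : CS 2 v n n m S) (hs : squ v s ⊆ thick v n m z)
    (hsm : s.1.1 = m) (hk : s.2 ≠ 2) :
    ∃ A : ℝ≥0∞, A < ENNReal.ofReal ((2 * K0 p L C) / 8 ^ m) ∧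
      Tendsto (fun i => faceE p (g ∘ S i) (sc v s) s.2 (1 / 2 / 2 ^ s.1.1)) atTop (𝓝 A) := by
  have hp : 0 < p := by linarith
  have h8 : (0:ℝ) < 8 ^ m := by positivity
  have hρ : (0:ℝ) < 1 / 2 / 2 ^ s.1.1 := by positivity
  have hKK : 0 ≤ 4 * ∑ j : Fin 3, ‖L (ev j)‖ ^ p := by positivity
  refine fin_sum (B := C) hCpos.le (by unfold K0; linarith) fun j hj => ?_
  have hjk : j ≠ s.2 := Finset.ne_of_mem_erase hj
  refine ⟨_, ?_, tendsto_face hp hn hm (slabs_mem hz1 hz2) hS hC hs j (-(ev j 2))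
    fun x hx hg => ?_⟩
  · by_cases hj2 : j = 2
    · subst hj2
      have e : (ev 2 + (-(ev 2 2 : ℝ)) • ev 2 : V) = 0 := by simp [ev]
      rw [e]
      simp only [map_zero, norm_zero]
      rw [Real.zero_rpow hp.ne']
      simp
    · have e : (ev j + (-(ev j 2 : ℝ)) • ev 2 : V) = ev j := by
        simp [ev, Pi.single_eq_of_ne (Ne.symm hj2)]
      rw [e]
      have h1 := SQ.specEdge (sc v s) (1 / 2 / 2 ^ s.1.1) s.2 2 j (mid v n z) (dE p g j) hρ
        (SQ.measurable_dE g j) (Ne.symm hk) hj2 hjk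
      have h2 : ∫⁻ x in cube (sc v s) (1 / 2 / 2 ^ s.1.1), ENNReal.ofReal
          (‖fderiv ℝ g (Function.update (Function.update x s.2 (sc v s s.2)) 2 (mid v n z))
            (ev j)‖ ^ p) = ∫⁻ x in cube (sc v s) (1 / 2 / 2 ^ s.1.1), dE p g j
            (Function.update (Function.update x s.2 (sc v s s.2)) 2 (mid v n z)) := rfl
      rw [h2, h1]
      have hmid : mid v n z = v 2 + ((2 ^ (m - (n + 1)) * (2 * z + 1) : ℤ) : ℝ) / 2 ^ m := by
        have hp : (2:ℝ) ^ m = 2 ^ (n + 1) * 2 ^ (m - (n + 1)) := by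
          rw [← pow_add]; congr 1; omega
        unfold mid
        rw [hp]
        push_cast
        field_simp
      have hthird : ∀ l : Fin 3, l ≠ j → l ≠ 2 → l = s.2 := by
        have H : ∀ (k j l : Fin 3), k ≠ 2 → j ≠ k → j ≠ 2 → l ≠ j → l ≠ 2 → l = k := by decide
        exact fun l h1 h2 => H s.2 j l hk hjk hj2 h1 h2
      set e : Idx × Fin 3 := ((m, Function.update s.1.2 2 (2 ^ (m - (n + 1)) * (2 * z + 1))), j)
        with he
      have hedge : edge v e ⊆ core v n := by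
        intro x hx
        rw [AB.Gr.mem_edge] at hx
        obtain ⟨hx1, hx2, hx3⟩ := hx
        simp only [he, Function.update_of_ne hj2] at hx1 hx2 hx3
        have hy : Function.update x 2 (v 2 + s.1.2 2 / 2 ^ s.1.1) ∈ squ v s := by
          rw [squ]
          refine ⟨?_, fun l hl => ?_⟩
          · rw [Function.update_of_ne hk, hx1 s.2 hjk.symm, Function.update_of_ne hk, hsm]
          · by_cases hl2 : l = 2
            · subst hl2
              rw [Function.update_self]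
              refine ⟨le_rfl, ?_⟩
              have h0 : (0:ℝ) < 2 ^ s.1.1 := by positivity
              have := div_le_div_of_nonneg_right
                (show (s.1.2 2 : ℝ) ≤ s.1.2 2 + 1 by linarith) h0.le
              linarith
            · have hlj : l = j := by
                by_contra h
                exact hl (hthird l h hl2)
              subst hlj
              rw [Function.update_of_ne hl2, hsm]
              exact ⟨hx2, hx3⟩
        have h3 := T67.update_core hz1 hz2 (hs hy).1 (t := mid v n z)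
          (by rw [sub_self, abs_zero]; positivity)
        rw [Function.update_idem] at h3
        have h4 : x 2 = mid v n z := by
          rw [hx1 2 (Ne.symm hj2), Function.update_self, hmid]
        rwa [← h4, Function.update_eq_self] at h3
      have hor := hS.hor e rfl hedge hj2 ⟨2 * z + 1, by simp [he]⟩
      have hg : gInt p v g e = eInt v e (dE p g j) := rfl
      rw [hg, AB.S293.eInt_eq v e (SQ.measurable_dE g j)] at hor
      have hset : Icc (sc v s j - 1 / 2 / 2 ^ s.1.1) (sc v s j + 1 / 2 / 2 ^ s.1.1) =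
          Icc (v e.2 + (e.1.2 e.2 : ℝ) / 2 ^ e.1.1) (v e.2 + (e.1.2 e.2 + 1) / 2 ^ e.1.1) := by
        simp only [he, Function.update_of_ne hj2, sc, hjk, if_false, hsm]
        congr 1 <;> ring
      have hfun : ∀ t : ℝ, (Function.update (Function.update (sc v s) 2 (mid v n z)) j t : V) =
          Function.update (pt v e.1.1 e.1.2) e.2 t := by
        intro t
        funext l
        by_cases hl : l = j
        · subst hl
          simp [he]
        · rw [Function.update_of_ne hl, Function.update_of_ne (show l ≠ e.2 from hl)]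
          by_cases hl2 : l = 2
          · subst hl2
            rw [Function.update_self, hmid]
            simp [he, pt]
          · rw [Function.update_of_ne hl2]
            have hls := hthird l hl hl2
            subst hls
            simp only [he, pt, Function.update_of_ne hl2, sc, if_true, hsm]
      rw [hset]
      simp only [hfun]
      calc ENNReal.ofReal ((2 * (1 / 2 / 2 ^ s.1.1)) ^ 2) * _
          ≤ ENNReal.ofReal ((2 * (1 / 2 / 2 ^ s.1.1)) ^ 2) * ENNReal.ofReal (C / 2 ^ m) := by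
            gcongr
        _ = ENNReal.ofReal (C / 8 ^ m) := by
            rw [← ENNReal.ofReal_mul (by positivity), hsm]
            congr 1
            have : (8:ℝ) ^ m = 2 ^ m * 2 ^ m * 2 ^ m := by
              rw [← mul_pow, ← mul_pow]; norm_num
            rw [this]
            field_simp
  · refine affNear_main (h := mid v n z) ?_ (ev j)
    have h1 := hs (upd_mem hx)
    refine muC_near_main hn hm (slabs_mem hz1 hz2) (fun i _ => mem_core_iff.1 h1.1 i) ?_
    rw [midC_two]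
    exact strict_of (fun y hy => (hs hy).2) hx (Ne.symm hk) (hg 2)

end limit

theorem specCtrl : L3.SpecCtrl := by
  intro p L C hp1 hp2 hL hCpos
  have hK : 0 < K0 p L C := by unfold K0; positivity
  refine ⟨2 * K0 p L C, by positivity, fun n m hn hm => ⟨1 / 8 ^ m, by positivity, ?_⟩⟩
  intro ε hε hε1 Λ f g v S hS hC s hsm hr
  obtain ⟨r, hr, hsub⟩ := hr
  obtain ⟨z, hz1, hz2, hth⟩ := T67.newP_thick hm hr
  have hs := hsub.trans hth
  have key : ∃ A : ℝ≥0∞, A < ENNReal.ofReal ((2 * K0 p L C) / 8 ^ m) ∧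
      Tendsto (fun i => faceE p (g ∘ S i) (sc v s) s.2 (1 / 2 / 2 ^ s.1.1)) atTop (𝓝 A) := by
    by_cases hk : s.2 = 2
    · exact horiz hp1 hp2 hn hm hz1 hz2 hCpos hε1 hS hC hs hsm hk
    · exact vert hp1 hn hm hz1 hz2 hCpos hS hC hs hsm hk
  obtain ⟨A, hA, hlim⟩ := key
  rw [hsm] at hlim
  filter_upwards [hlim.eventually_lt_const hA] with i hi
  exact hi.le

end Vale.Agent.P073.LOC.C720
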