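import Vale.Agent.P073.LOC720.Ctrl
import Vale.Agent.P073.LOC.CollFin752
import Vale.Agent.P073.LOC.Sum293
import Vale.Agent.P073.LOC.Geo308d
import Vale.Agent.P073.SQ.Final

/-!
# P073, block LOC-3D: assembly (same theorems as `LOC/Loc3D752.lean`)
-/

namespace Vale.Agent.P073.LOC720

open Vale.Agent.P073.LOC

/-- (L3A) the vertical collapse -/
theorem specCollOut : SpecCollOut := L3.specCollOut_of C720.specCtrl

/-- (LOC3D) the vertical collapse gives the local theorem -/
theorem specLoc3D : SpecLoc3D := specLoc3D_of specCollOut specSumQ specGeoQ SQ.specSQ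

end Vale.Agent.P073.LOC720
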